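import Vale.Agent.P305RB.Cnt

/-!
# The tables of a level: the final statements
-/

namespace Vale.Agent.P305RB

open Vale.Agent.P305E Vale.Agent.P305M Vale.Agent.P305Q Vale.Agent.P305Y
open Vale.Agent.P305CV (WE Cl)
open Vale.Agent.P305U (Ob Fo LV In LvOK)
open Vale.Agent.P305BD (we obj o4 e3 RwOK obj_mem)

namespace Ctx

variable {S S' : Sto} {G : List ℕ} {N k J : ℕ} {PA R : ℕ → ℕ} {vs : List ℕ} {cs : List (ℕ × Cl)}
  {V : LV} {γ Λ : ℕ} {Sk : List ℕ} {Pi : ℕ → SW} {P K : List ℕ} {Q : ℕ → SW} {own : ℕ → List ℕ}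
  {κ : ℕ} {L : Lvl}

/-- The program that builds the tables. -/
theorem tabs (c : Cx) (κ nc : ℕ) {Q : Arr SW} {X : ℕ}
    (h : Ctx S S' G N k J PA R vs cs V γ Λ Sk Pi P K Q.get own) (hk : 1 ≤ k)
    (hX : ∀ z ∈ G, (S.1.get z).2.2.1 ≤ X ∧ (S.1.get z).2.2.2.natAbs ≤ X)
    (hB : 3 * (k + 1) * (γ + 1) * (k * X) ≤ c.B) (hB' : V.obs.length ≤ c.B) :
    Tri c (tabsP κ nc S' G P K V Q) fun L t => TabOK κ nc S' G P K V Q.get L ∧
      t ≤ 13 * (3 * (k + 1) * (γ + 1) + 1) ^ 2 * V.obs.length + 10 * (k + 1) * P.length +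
        8 * (G.length + V.ns.length) + 7 * (J + 1) * nc :=
  tabsP_tri c κ nc G K (fun _ hx => h.cyc_len hx)
    (fun _ hx _ hy => h.num_le hk hX (h.its_mem hx (List.mem_map_of_mem hy)))
    (fun _ hp => h.cs_len hp) h.lv.cls_len hB hB'

variable (h : Ctx S S' G N k J PA R vs cs V γ Λ Sk Pi P K Q own)
  (hT : TabOK κ cs.length S' G P K V Q L)
include h hT

/-- The level, up to soundness. -/
theorem lvlOK {Γ p : ℕ} (hΓ : 2 * J + 2 ≤ Γ)
    (hp : 108 * (J + 1) ^ 4 * (k + 1) ^ 4 * (γ + 1) ^ 2 * (Λ + 1) ≤ p)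
    (hS : Sound S'.1.get G L κ Γ) : LvlOK S S' G L κ k Γ p := by
  have l := hT.lem _ fun _ hx => h.cyc_len hx
  have e1 : 12 * (J + 1) ^ 4 * (k + 1) ^ 2 * (Λ + 1) * (3 * (k + 1) * (γ + 1)) *
      (3 * (k + 1) * (γ + 1)) ≤ p := le_trans (le_of_eq (by ring)) hp
  have e0 : J ^ 2 * k + 1 ≤ 12 * (J + 1) ^ 4 * (k + 1) ^ 2 * (Λ + 1) * (3 * (k + 1) * (γ + 1)) := by
    refine le_trans ?_ (Nat.le_mul_of_pos_right _ (by positivity))
    refine le_trans ?_ (Nat.le_mul_of_pos_right _ (by positivity))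
    have a1 : J ^ 2 ≤ (J + 1) ^ 4 :=
      (Nat.pow_le_pow_left (Nat.le_succ J) 2).trans (Nat.pow_le_pow_right (by omega) (by omega))
    have a2 : k ≤ (k + 1) ^ 2 := (Nat.le_succ k).trans (Nat.le_self_pow (by omega) _)
    have a3 := Nat.mul_le_mul a1 a2
    have a4 : 0 < (J + 1) ^ 4 * (k + 1) ^ 2 := by positivity
    rw [Nat.mul_assoc]
    omega
  have e2 := (Nat.mul_le_mul_right _ e0).trans e1
  rw [Nat.add_mul, Nat.one_mul] at e2
  refine ⟨by rw [h.cp.nx]; omega, h.cp.old, hT.eP ▸ h.cp.new, hT.eP ▸ h.cp.nodup, fun z hz => ?_,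
    fun z => ⟨?_, fun y hy => ?_⟩, fun z hz => ?_, fun z => ⟨?_, fun y hy => ?_⟩,
    fun z => ⟨?_, fun y hy => ?_⟩, fun z => ?_, fun z => ?_, fun z => ?_, fun w hw => ?_, hS⟩
  · rw [hT.eP] at hz
    obtain ⟨a1, a2, -, a4⟩ := h.cp.cs z hz
    refine ⟨fun c hc => ⟨h.cs_mem hz hc, (hT.par _ _).2 ⟨hz, List.mem_map_of_mem hc⟩⟩, ?_,
      h.cs_len hz, a4⟩
    rw [a1]
    simpa using a2
  · have := h.count_par z
    rw [hT.lpar]
    omega
  · exact hT.eP ▸ ((hT.par _ _).1 hy).1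
  · rw [hT.eP]
    exact h.K_mem (hT.eK ▸ hz)
  · exact (l z).1.trans (le_trans (Nat.mul_le_mul_right _
      (Nat.mul_le_mul_right _ (h.count_its z))) e1)
  · obtain ⟨x, hx, -, b⟩ := (hT.em _ _).1 hy
    exact hT.eP ▸ h.its_mem hx b
  · exact (l z).2.trans (le_trans (Nat.mul_le_mul_right _ (h.lv.load_tr z)) (by omega))
  · obtain ⟨x, hx, -, b⟩ := (hT.cem _ _).1 hy
    exact hT.eP ▸ h.its_mem hx b
  · have := List.nodup_iff_count_le_one.1 h.nodup_GP z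
    have := h.lv.ns_te z
    rw [hT.ltl]
    omega
  · have := hT.lctl z
    have := h.lv.cls_len (V.ctr.get z)
    omega
  · have := h.lv.cls_len z
    rw [hT.cls]
    omega
  · obtain ⟨a1, a2, x, hx, b⟩ := hT.cand w hw
    have := h.cyc_len hx
    rw [hT.eP]
    rcases b with rfl | rfl
    · exact ⟨a1, by omega, fun c hc => h.its_mem hx (List.mem_map_of_mem hc),
        ⟨_, h.walk_cyc hx⟩, a2⟩
    · exact ⟨a1, by rw [length_rev]; omega, fun c hc => h.its_mem hx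
        (List.mem_map.2 ⟨_, mem_rev.1 hc, rfl⟩), ⟨_, (h.walk_cyc hx).rev⟩, a2⟩

end Ctx

end Vale.Agent.P305RB
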