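import Vale.Agent.P305RB.Tab
import Vale.Agent.P305U.Defs
import Vale.Agent.P305Y.Defs

/-!
# The tables and the candidates of a level: program and exact description
-/

namespace Vale.Agent.P305RB

open Vale.Agent.P305E Vale.Agent.P305M Vale.Agent.P305Q Vale.Agent.P305Y
open Vale.Agent.P305U (Ob Fo LV)

/-- The closed walk of the object `x.1` with the number `x.2`. -/
def cyc (V : LV) (Q : ℕ → SW) (x : Ob × ℕ) : SW := V.F.W x.1 ++ rev (Q x.2)

/-- The items of an object. -/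
def its (V : LV) (Q : ℕ → SW) (x : Ob × ℕ) : List ℕ := (cyc V Q x).map Prod.fst

/-- The exact description of the tables; the objects are numbered by their positions. -/
structure TabOK (κ nc : ℕ) (S : Sto) (G P K : List ℕ) (V : LV) (Q : ℕ → SW) (L : Lvl) : Prop where
  eP : L.P = P
  eK : L.K = K
  cls : ∀ u, L.cls u = V.cls.get u
  em : ∀ z y, y ∈ L.em z ↔ ∃ x ∈ V.obs.zipIdx, z ∈ its V Q x ∧ y ∈ its V Q x
  cem : ∀ C y, y ∈ L.cem C ↔ ∃ x ∈ V.obs.zipIdx, x.1.tr = some C ∧ y ∈ its V Q x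
  par : ∀ z p, p ∈ L.par z ↔ p ∈ P ∧ z ∈ (S.2.1.get p).map Prod.fst
  tl : ∀ z y, y ∈ L.tl z ↔ ((z ∈ G ∨ z ∈ P) ∧ (y = (S.1.get z).1 ∨ y = (S.1.get z).2.1)) ∨
    ∃ a ∈ V.ns, (V.F.te.get a).1 = z ∧ y = V.F.r a % V.N
  ctl : ∀ C y, y ∈ L.ctl C ↔ C < nc ∧ (y = V.ctr.get C ∨
    ∃ j ∈ V.cls.get (V.ctr.get C), y = V.F.r (j * V.N + V.ctr.get C) % V.N)
  cand : ∀ w ∈ L.cand, w ≠ [] ∧ wg S.1.get w + κ * wlen S.1.get w ≤ 0 ∧
    ∃ x ∈ V.obs.zipIdx, w = cyc V Q x ∨ w = rev (cyc V Q x)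
  cover : ∀ x ∈ V.obs.zipIdx, (cyc V Q x ∈ L.cand ∨ rev (cyc V Q x) ∈ L.cand) ∨
    |wg S.1.get (cyc V Q x)| ≤ κ * wlen S.1.get (cyc V Q x)
  lem : ∀ m, (∀ x ∈ V.obs.zipIdx, (cyc V Q x).length ≤ m) → ∀ z,
    (L.em z).length ≤ (V.obs.zipIdx.countP fun x => z ∈ its V Q x) * m * m ∧
    (L.cem z).length ≤ (V.obs.countP fun o => o.tr = some z) * m
  lpar : ∀ z, (L.par z).length = (P.flatMap fun p => (S.2.1.get p).map Prod.fst).count z
  ltl : ∀ z, (L.tl z).length =
    2 * (G ++ P).count z + V.ns.countP fun a => (V.F.te.get a).1 = z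
  lctl : ∀ C, (L.ctl C).length ≤ (V.cls.get (V.ctr.get C)).length + 1
  lcand : L.cand.length ≤ V.obs.length

/-- Reversal of a walk. -/
def revW (w : SW) : M SW := mapP (fun c => (c.1, !c.2)) w >>= revP

@[fun_prop] theorem impl_revW {α : Type} [Rep α] {w : α → SW} (hw : Pure w) :
    Impl fun x => revW (w x) := by
  unfold revW
  fun_prop

@[simp] theorem Tri_revW {c : Cx} (w : SW) (Q : SW → ℕ → Prop) :
    Tri c (revW w) Q ↔ Q (rev w) (2 * w.length) := by
  simp only [revW, Tri_bind, Tri_mapP, Tri_revP, List.length_map, rev, two_mul]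

/-- The closed walk of an object. -/
def cycP (V : LV) (Q : Arr SW) (x : Ob × ℕ) : M SW := do
  let a ← revW (V.F.wk.get x.1.x)
  let b ← appendP (V.F.wk.get x.1.z) (V.F.wk.get x.1.y)
  let c ← appendP a (x.1.eo.elim b fun e => e :: b)
  let q ← revW (Q.get x.2)
  appendP c q

@[fun_prop] theorem impl_cycP : Impl fun p : LV × Arr SW × Ob × ℕ => cycP p.1 p.2.1 p.2.2 := by
  unfold cycP
  fun_prop

theorem cycP_tri (c : Cx) (V : LV) (Q : Arr SW) (x : Ob × ℕ) :
    Tri c (cycP V Q x) fun w t => w = cyc V Q.get x ∧ t ≤ 5 * w.length := by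
  simp only [cycP, Tri_bind, Tri_revW, Tri_appendP, cyc, Fo.W]
  cases x.1.eo <;> refine ⟨rfl, ?_⟩ <;>
    simp only [Option.elim, List.length_append, length_rev, List.length_cons] <;> omega

/-- The signed gradient. -/
def sgv (it : Arr RA) (c : ℕ × Bool) : ℤ :=
  if c.2 = true then (it.get c.1).2.2.2 else -(it.get c.1).2.2.2

theorem wg_eq (it : Arr RA) (w : SW) : wg it.get w =
    ((w.map fun c => (sgv it c).toNat).sum : ℕ) - ((w.map fun c => (-sgv it c).toNat).sum : ℕ) := by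
  induction w with
  | nil => simp
  | cons c w ih =>
    have e : sg c.2 * (it.get c.1).2.2.2 = sgv it c := by
      unfold sgv
      cases c.2 <;> simp
    rw [wg_cons, ih, e]
    simp only [List.map_cons, List.sum_cons]
    omega

/-- The candidate of a closed walk. -/
def cand1 (κ : ℕ) (it : Arr RA) (w : SW) : M (List SW) := do
  let l ← sumP (fun c => (it.get c.1).2.2.1) w
  let a ← sumP (fun c => (sgv it c).toNat) w
  let b ← sumP (fun c => (-sgv it c).toNat) w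
  let r ← revW w
  pure (if w.isEmpty = true then [] else if a + κ * l ≤ b then [w] else
    if b + κ * l ≤ a then [r] else [])

@[fun_prop] theorem impl_cand1 : Impl fun p : ℕ × Arr RA × SW => cand1 p.1 p.2.1 p.2.2 := by
  unfold cand1 sgv
  fun_prop

theorem sum_map_le {β : Type} {f : β → ℕ} {l : List β} {X : ℕ} (h : ∀ c ∈ l, f c ≤ X) :
    (l.map f).sum ≤ l.length * X := by
  simpa using List.sum_le_card_nsmul (l.map f) X (by simpa using h)

theorem cand1_tri (c : Cx) (κ : ℕ) (it : Arr RA) {w : SW} {X : ℕ}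
    (h : ∀ x ∈ w, (it.get x.1).2.2.1 ≤ X ∧ (it.get x.1).2.2.2.natAbs ≤ X)
    (hB : w.length * X ≤ c.B) : Tri c (cand1 κ it w) fun r t => (r.length ≤ 1 ∧
      (∀ v ∈ r, v ≠ [] ∧ wg it.get v + κ * wlen it.get v ≤ 0 ∧ (v = w ∨ v = rev w)) ∧
      ((w ∈ r ∨ rev w ∈ r) ∨ |wg it.get w| ≤ κ * wlen it.get w)) ∧ t ≤ 5 * w.length := by
  have e := wg_eq it w
  have b : ∀ x ∈ w, (sgv it x).natAbs ≤ X := fun x hx => by
    have := (h x hx).2
    unfold sgv
    split_ifs <;> omega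
  simp only [cand1, Tri_bind, Tri_sumP, Tri_revW, Tri_pure]
  refine ⟨(sum_map_le fun x hx => (h x hx).1).trans hB,
    (sum_map_le fun x hx => by have := b x hx; omega).trans hB,
    (sum_map_le fun x hx => by have := b x hx; omega).trans hB, ?_, by omega⟩
  rw [show (w.map fun c => (it.get c.1).2.2.1).sum = wlen it.get w from rfl]
  generalize (w.map fun c => (sgv it c).toNat).sum = a at e
  generalize (w.map fun c => (-sgv it c).toNat).sum = a' at e
  split_ifs with h1 h2 h3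
  · rw [List.isEmpty_iff.1 h1]
    simp
  · refine ⟨by simp, fun v hv => ?_, by simp⟩
    rw [List.mem_singleton.1 hv, e]
    exact ⟨by simpa using h1, by zify at h2; omega, Or.inl rfl⟩
  · refine ⟨by simp, fun v hv => ?_, by simp⟩
    rw [List.mem_singleton.1 hv, wg_rev, wlen_rev, e]
    refine ⟨fun h4 => h1 ?_, by zify at h3; omega, Or.inr rfl⟩
    rw [List.isEmpty_iff, ← List.length_eq_zero_iff, ← length_rev, h4]
    rfl
  · refine ⟨by simp, by simp, Or.inr ?_⟩
    rw [e, abs_le]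
    zify at h2 h3
    constructor <;> omega

/-- The vertices that are touched when the cluster `j` breaks. -/
def ctl1 (V : LV) (j : ℕ) : M (List ℕ × List ℕ) := do
  let l ← mapP (fun i => (V.F.rt.get (i * V.N + V.ctr.get j)).elim (V.ctr.get j % V.N)
    fun v => v % V.N) (V.cls.get (V.ctr.get j))
  pure ([j], V.ctr.get j :: l)

@[fun_prop] theorem impl_ctl1 : Impl fun p : LV × ℕ => ctl1 p.1 p.2 := by
  unfold ctl1
  fun_prop

/-- The pair of a cluster. -/
def ctlF (V : LV) (j : ℕ) : List ℕ × List ℕ :=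
  ([j], V.ctr.get j :: (V.cls.get (V.ctr.get j)).map fun i => V.F.r (i * V.N + V.ctr.get j) % V.N)

theorem ctl1_tri (c : Cx) (V : LV) (j : ℕ) :
    Tri c (ctl1 V j) fun r t => r = ctlF V j ∧ t ≤ (V.cls.get (V.ctr.get j)).length := by
  simp only [ctl1, Tri_bind, Tri_mapP, Tri_pure, ctlF, Nat.add_zero, le_refl, and_true]
  congr 2
  refine List.map_congr_left fun i _ => ?_
  unfold Fo.r
  cases V.F.rt.get (i * V.N + V.ctr.get j) <;> simp

/-- The tables of a level; input `(κ, nc, S, G, P, K, V, Q)`. -/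
def tabsP (κ nc : ℕ) (S : Sto) (G P K : List ℕ) (V : LV) (Q : Arr SW) : M Lvl := do
  let zo ← zipIdxP V.obs
  let cy ← mapM' (fun x => do
    let w ← cycP V Q x
    let i ← mapP Prod.fst w
    pure (x.1.tr, w, i)) zo
  let l1 ← mapP (fun y => (y.2.2, y.2.2)) cy
  let em ← tabP l1
  let l2 ← mapP (fun y => (y.1.elim [] fun C => [C], y.2.2)) cy
  let cem ← tabP l2
  let l3 ← mapM' (fun p => do
    let i ← mapP Prod.fst (S.2.1.get p)
    pure (i, [p])) P
  let par ← tabP l3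
  let gp ← appendP G P
  let l4 ← mapP (fun z => ([z], [(S.1.get z).1, (S.1.get z).2.1])) gp
  let l5 ← mapP (fun a => ([(V.F.te.get a).1], [V.F.r a % V.N])) V.ns
  let l6 ← appendP l4 l5
  let tl ← tabP l6
  let r ← rangeP nc
  let l7 ← mapM' (ctl1 V) r
  let ctl ← tabP l7
  let cd ← mapM' (fun y => cand1 κ S.1 y.2.1) cy
  let cand ← flattenP cd
  pure ((P, K), (em, tl, par), (V.cls, cem, ctl), cand)

@[fun_prop] theorem impl_tabsP : Impl fun p : (ℕ × ℕ × Sto) × (List ℕ × List ℕ × List ℕ) ×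
    LV × Arr SW => tabsP p.1.1 p.1.2.1 p.1.2.2 p.2.1.1 p.2.1.2.1 p.2.1.2.2 p.2.2.1 p.2.2.2 := by
  unfold tabsP
  fun_prop

end Vale.Agent.P305RB
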