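import Vale.Agent.P305RB.TabsT
import Vale.Agent.P305BD.Defs

/-!
# The tables of a level: counting, and the facts for the level
-/

namespace Vale.Agent.P305RB

open Vale.Agent.P305E Vale.Agent.P305M Vale.Agent.P305Q Vale.Agent.P305Y
open Vale.Agent.P305CV (WE Cl)
open Vale.Agent.P305U (Ob Fo LV In LvOK)
open Vale.Agent.P305X (CompOK Wo ids spk)
open Vale.Agent.P305BD (we obj o4 e3 RwOK obj_mem)
open Vale.Agent.P305W (fta fhd fln fg iw_iff)

theorem countP_or_le {β : Type} {p q r : β → Bool} (l : List β)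
    (h : ∀ x ∈ l, p x = true → q x = true ∨ r x = true) : l.countP p ≤ l.countP q + l.countP r := by
  induction l with
  | nil => simp
  | cons x l ih =>
    have a := ih fun y hy => h y (by simp [hy])
    have b := h x (by simp)
    simp only [List.countP_cons]
    split_ifs <;> first | omega | simp_all

/-- The union bound. -/
theorem countP_union {α β : Type} (T : List α) {l : List β} {p : β → Bool} (q : α → β → Bool)
    {A : ℕ} (h : ∀ x ∈ l, p x = true → ∃ a ∈ T, q a x = true) (hA : ∀ a ∈ T, l.countP (q a) ≤ A) :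
    l.countP p ≤ T.length * A := by
  induction T generalizing p with
  | nil => exact le_of_eq (by simpa using h)
  | cons a T ih =>
    have a1 := ih (p := fun x => T.any fun a => q a x) (by simp) fun b hb => hA b (by simp [hb])
    have a2 := countP_or_le (p := p) (q := q a) (r := fun x => T.any fun a => q a x) l
      (by simpa using h)
    have a3 := hA a (by simp)
    rw [List.length_cons, Nat.succ_mul]
    omega

theorem mem_zip {V : LV} {x : Ob × ℕ} :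
    x ∈ V.obs.zipIdx ↔ x.2 < V.obs.length ∧ x.1 = obj V x.2 := by
  rw [List.mem_zipIdx_iff_getElem?, List.getElem?_eq_some_iff]
  exact ⟨fun ⟨h, e⟩ => ⟨h, by rw [obj, List.getD_eq_getElem _ _ h, e]⟩,
    fun ⟨h, e⟩ => ⟨h, by rw [e, obj, List.getD_eq_getElem _ _ h]⟩⟩

theorem mem_zip' {V : LV} {o : Ob} {i : ℕ} (h : V.obs[i]? = some o) : (o, i) ∈ V.obs.zipIdx :=
  List.mem_zipIdx_iff_getElem?.2 h

theorem countP_zipIdx_snd {β : Type} (l : List β) (p : ℕ → Bool) :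
    (l.zipIdx.countP fun x => p x.2) = (List.range l.length).countP p := by
  rw [List.range_eq_range', ← List.zipIdx_map_snd 0 l, List.countP_map]
  rfl

theorem mem_W {F : Fo} {o : Ob} {z : ℕ} : z ∈ (F.W o).map Prod.fst ↔
    z ∈ (F.wk.get o.x).map Prod.fst ∨ o.eo.map Prod.fst = some z ∨
      z ∈ (F.wk.get o.z).map Prod.fst ∨ z ∈ (F.wk.get o.y).map Prod.fst := by
  simp only [Fo.W, List.map_append, List.mem_append, P305W.fst_mem_rev]
  cases o.eo <;> simp [eq_comm]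

theorem mem_its {V : LV} {Q : ℕ → SW} {x : Ob × ℕ} {z : ℕ} :
    z ∈ its V Q x ↔ z ∈ (V.F.W x.1).map Prod.fst ∨ z ∈ (Q x.2).map Prod.fst := by
  rw [its, cyc, List.map_append, List.mem_append]
  exact or_congr_right P305W.fst_mem_rev

theorem mem_its' {V : LV} {Q : ℕ → SW} {o : Ob} {i : ℕ} {c : ℕ × Bool} (h : c ∈ V.F.W o ++ Q i) :
    c.1 ∈ its V Q (o, i) :=
  mem_its.2 ((List.mem_append.1 h).imp List.mem_map_of_mem List.mem_map_of_mem)

/-- Everything that is known when the tables are built. -/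
structure Ctx (S S' : Sto) (G : List ℕ) (N k J : ℕ) (PA R : ℕ → ℕ) (vs : List ℕ)
    (cs : List (ℕ × Cl)) (V : LV) (γ Λ : ℕ) (Sk : List ℕ) (Pi : ℕ → SW) (P K : List ℕ)
    (Q : ℕ → SW) (own : ℕ → List ℕ) : Prop where
  nd : G.Nodup
  lt : ∀ z ∈ G, z < S.2.2
  lv : LvOK (fta S.1.get) (fhd S.1.get) (fln S.1.get) N k J PA R vs (G.map (we S.1.get)) cs V
  rw : RwOK (fun i => e3 V (obj V i)) V.obs.length γ Λ Sk Pi
  cp : CompOK V.F.sp.get V.F.te.get (fun i => o4 (obj V i)) (fun i => V.a0 (obj V i))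
    (fun i => V.b0 (obj V i)) Sk (List.range V.obs.length) Pi k γ S S' P K Q own

namespace Ctx

variable {S S' : Sto} {G : List ℕ} {N k J : ℕ} {PA R : ℕ → ℕ} {vs : List ℕ} {cs : List (ℕ × Cl)}
  {V : LV} {γ Λ : ℕ} {Sk : List ℕ} {Pi : ℕ → SW} {P K : List ℕ} {Q : ℕ → SW} {own : ℕ → List ℕ}
  (h : Ctx S S' G N k J PA R vs cs V γ Λ Sk Pi P K Q own)
include h

theorem W_mem {o : Ob} (ho : o ∈ V.obs) {c : ℕ × Bool} (hc : c ∈ V.F.W o) : c.1 ∈ G := by
  obtain ⟨e, he, e1⟩ := (h.lv.olen o ho).2.2.2 c hc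
  obtain ⟨z, hz, rfl⟩ := List.mem_map.1 he
  exact e1 ▸ hz

theorem K_mem {z : ℕ} (hz : z ∈ K) : z ∈ G ∨ z ∈ P := by
  rcases h.cp.kmem z hz with a | ⟨s, hs, d, e⟩
  · exact Or.inr a
  · refine Or.inl (h.W_mem (obj_mem (h.rw.sub s hs).1) (c := (z, d)) ?_)
    simp [Fo.W, show (obj V s).eo = some (z, d) from e]

theorem its_mem {x : Ob × ℕ} (hx : x ∈ V.obs.zipIdx) {z : ℕ} (hz : z ∈ its V Q x) :
    z ∈ G ∨ z ∈ P := by
  obtain ⟨a, b⟩ := mem_zip.1 hx
  rcases mem_its.1 hz with hz | hz <;> obtain ⟨c, hc, rfl⟩ := List.mem_map.1 hz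
  · exact Or.inl (h.W_mem (b ▸ obj_mem a) hc)
  · exact h.K_mem (h.cp.qk _ (List.mem_range.2 a) c hc)

theorem cyc_len {x : Ob × ℕ} (hx : x ∈ V.obs.zipIdx) :
    (cyc V Q x).length ≤ 3 * (k + 1) * (γ + 1) := by
  obtain ⟨a, b⟩ := mem_zip.1 hx
  have a1 := (h.lv.olen x.1 (b ▸ obj_mem a)).2.2.1
  have a2 := h.cp.qlen _ (List.mem_range.2 a)
  rw [cyc, List.length_append, length_rev]
  nlinarith [Nat.zero_le γ]

theorem old {z : ℕ} (hz : z ∈ G) : S'.1.get z = S.1.get z := (h.cp.old z (h.lt z hz)).1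

theorem ns_of_ids {o : Ob} {a : ℕ} (ha : a ∈ ids V.F.sp.get (o4 o)) : a ∈ V.ns := by
  simp only [ids, List.mem_append] at ha
  rcases ha with ha | ha | ha <;> exact (h.lv.ns a).2 (h.lv.sp_mem _ a ha).2.2.2

theorem te_mem {a : ℕ} (ha : a ∈ V.ns) : (V.F.te.get a).1 ∈ G := by
  rcases h.lv.fo a with e | ⟨-, -, -, -, -, ⟨e, he, e1⟩, -⟩
  · exact absurd e.1 ((h.lv.ns a).1 ha)
  · obtain ⟨z, hz, rfl⟩ := List.mem_map.1 he
    exact e1 ▸ hz

theorem cs_mem {p : ℕ} (hp : p ∈ P) {c : ℕ × Bool} (hc : c ∈ S'.2.1.get p) : c.1 ∈ G := by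
  obtain ⟨s, -, hs⟩ := h.cp.sub p hp
  rw [(h.cp.cs p hp).1] at hc
  obtain ⟨a, ha, rfl⟩ := List.mem_map.1 hc
  exact h.te_mem (h.ns_of_ids (hs a ha))

theorem cs_len {p : ℕ} (hp : p ∈ P) : (S'.2.1.get p).length ≤ k := by
  rw [(h.cp.cs p hp).1, List.length_map]
  exact (h.cp.cs p hp).2.2.1

/-- The sizes of the numbers. -/
theorem num_le {X : ℕ} (hk : 1 ≤ k)
    (hX : ∀ z ∈ G, (S.1.get z).2.2.1 ≤ X ∧ (S.1.get z).2.2.2.natAbs ≤ X) {z : ℕ}
    (hz : z ∈ G ∨ z ∈ P) : (S'.1.get z).2.2.1 ≤ k * X ∧ (S'.1.get z).2.2.2.natAbs ≤ k * X := by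
  rcases hz with hz | hz
  · have := Nat.le_mul_of_pos_left X hk
    rw [h.old hz]
    exact ⟨(hX z hz).1.trans this, (hX z hz).2.trans this⟩
  · obtain ⟨-, -, -, -, a, b⟩ := h.cp.cs z hz
    have l := Nat.mul_le_mul_right X (h.cs_len hz)
    rw [a, b]
    exact ⟨(sum_map_le fun c hc => (hX _ (h.cs_mem hz hc)).1).trans l,
      (natAbs_ssum _ _).trans ((sum_map_le fun c hc => (hX _ (h.cs_mem hz hc)).2).trans l)⟩

theorem walk_Q {i : ℕ} (hi : i < V.obs.length) :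
    Wlk S'.1.get (V.a0 (obj V i)) (Q i) (V.b0 (obj V i)) :=
  h.cp.walk i (List.mem_range.2 hi) _ _ (h.rw.walk i hi)

theorem walk_W {o : Ob} (ho : o ∈ V.obs) : Wlk S'.1.get (V.a0 o) (V.F.W o) (V.b0 o) :=
  (iw_iff.1 (h.lv.owalk o ho)).congr fun _ hc => h.old (h.W_mem ho hc)

theorem walk_cyc {x : Ob × ℕ} (hx : x ∈ V.obs.zipIdx) :
    Wlk S'.1.get (V.a0 x.1) (cyc V Q x) (V.a0 x.1) := by
  obtain ⟨a, b⟩ := mem_zip.1 hx
  exact (h.walk_W (b ▸ obj_mem a)).append (b ▸ (h.walk_Q a).rev)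

theorem Wo_eq (o : Ob) : Wo (spk V.F.sp.get V.F.te.get) (o4 o) = V.F.W o := by
  simp only [Wo, spk, o4, Fo.W, h.lv.wk]
  rfl

theorem wlen_Q {i : ℕ} (hi : i < V.obs.length) : wlen S'.1.get (Q i) ≤
    γ * (2 * R (obj V i).sc + R ((obj V i).sc - 1) + PA (obj V i).sc) := by
  rw [h.cp.qw i (List.mem_range.2 hi)]
  refine (sum_map_le fun s hs => ?_).trans (Nat.mul_le_mul_right _ (h.rw.hops i hi))
  obtain ⟨a, b⟩ := h.rw.skel i hi s hs
  simp only [h.Wo_eq, ← show (obj V s.1).sc = (obj V i).sc from b]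
  exact (h.lv.olen _ (obj_mem (h.rw.sub _ a).1)).2.1

theorem count_W (z : ℕ) : (V.obs.countP fun o => z ∈ (V.F.W o).map Prod.fst) ≤
    2 * J * (5 * (J + 1) ^ 3 * (k + 1) ^ 2) + J := by
  refine (countP_or_le (q := fun o => (V.ns.filter fun a => (V.F.te.get a).1 = z).any fun a =>
    a ∈ ids V.F.sp.get (o4 o)) (r := fun o => o.eo.map Prod.fst = some z) _ fun o _ ho => ?_).trans
    (Nat.add_le_add ?_ (h.lv.load_eo z))
  · have a : ∀ v, z ∈ (V.F.wk.get v).map Prod.fst → (∀ a ∈ V.F.sp.get v,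
        a ∈ ids V.F.sp.get (o4 o)) → ∃ a ∈ V.ns, (V.F.te.get a).1 = z ∧
          a ∈ ids V.F.sp.get (o4 o) := fun v hv hs => by
      rw [h.lv.wk, List.map_map] at hv
      obtain ⟨a, ha, e⟩ := List.mem_map.1 hv
      exact ⟨a, h.ns_of_ids (hs a ha), e, hs a ha⟩
    simp only [List.any_eq_true, List.mem_filter, decide_eq_true_eq, and_assoc] at ho ⊢
    rcases mem_W.1 ho with b | b | b | b
    · exact Or.inl (a _ b fun a ha => by simp [ids, o4, ha])
    · exact Or.inr b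
    · exact Or.inl (a _ b fun a ha => by simp [ids, o4, ha])
    · exact Or.inl (a _ b fun a ha => by simp [ids, o4, ha])
  · refine (countP_union (V.ns.filter fun a => (V.F.te.get a).1 = z)
      (fun a o => a ∈ V.F.sp.get o.x ∨ a ∈ V.F.sp.get o.z ∨ a ∈ V.F.sp.get o.y) (fun o _ ho => ?_)
      fun a _ => h.lv.load a).trans (Nat.mul_le_mul_right _ ?_)
    · simpa [ids, o4, and_assoc] using ho
    · rw [← List.countP_eq_length_filter]
      exact h.lv.ns_te z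

theorem count_Q (z : ℕ) : (V.obs.zipIdx.countP fun x => z ∈ (Q x.2).map Prod.fst) ≤
    (5 * (J + 1) ^ 3 * (k + 1) ^ 2 + J) * Λ := by
  refine (countP_union (V.obs.zipIdx.filter fun s => (own z).headD 0 ∈ ids V.F.sp.get (o4 s.1) ∨
    s.1.eo.map Prod.fst = some z) (fun s x => s.2 ∈ (Pi x.2).map Prod.fst) (fun x hx hz => ?_)
    fun s _ => ?_).trans (Nat.mul_le_mul_right _ ?_)
  · obtain ⟨a, -⟩ := mem_zip.1 hx
    obtain ⟨c, hc, rfl⟩ := List.mem_map.1 (of_decide_eq_true hz)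
    obtain ⟨s, hs, b⟩ := h.cp.load _ (List.mem_range.2 a) c hc
    refine ⟨(obj V s.1, s.1), List.mem_filter.2 ⟨mem_zip.2
      ⟨(h.rw.sub _ (h.rw.skel _ a s hs).1).1, rfl⟩, decide_eq_true ?_⟩,
      decide_eq_true (List.mem_map_of_mem hs)⟩
    rcases b with ⟨b1, b2⟩ | ⟨d, e⟩
    · refine Or.inl (b2 _ ?_)
      have := (h.cp.cs _ b1).2.1
      cases e : own c.1 <;> simp_all
    · exact Or.inr (by rw [show (obj V s.1).eo = some (c.1, d) from e]; rfl)
  · exact (countP_zipIdx_snd V.obs fun i => s.2 ∈ (Pi i).map Prod.fst).le.trans (h.rw.load _)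
  · rw [← List.countP_eq_length_filter, countP_zipIdx V.obs fun o =>
      (own z).headD 0 ∈ ids V.F.sp.get (o4 o) ∨ o.eo.map Prod.fst = some z]
    refine (countP_or_le _ fun o _ ho => ?_).trans
      (Nat.add_le_add (h.lv.load ((own z).headD 0)) (h.lv.load_eo z))
    simpa [ids, o4] using ho

theorem count_its (z : ℕ) : (V.obs.zipIdx.countP fun x => z ∈ its V Q x) ≤
    12 * (J + 1) ^ 4 * (k + 1) ^ 2 * (Λ + 1) := by
  refine ((countP_or_le _ fun x _ hx => ?_).trans (Nat.add_le_add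
    ((countP_zipIdx V.obs fun o => z ∈ (V.F.W o).map Prod.fst).le.trans (h.count_W z))
    (h.count_Q z))).trans ?_
  · simpa only [decide_eq_true_eq, mem_its] using hx
  · have a : J ≤ (J + 1) ^ 3 * (k + 1) ^ 2 :=
      ((Nat.le_succ J).trans (Nat.le_self_pow (by omega) _)).trans
        (Nat.le_mul_of_pos_right _ (by positivity))
    rw [show 12 * (J + 1) ^ 4 * (k + 1) ^ 2 * (Λ + 1) =
      12 * (J + 1) * ((J + 1) ^ 3 * (k + 1) ^ 2) * (Λ + 1) by ring, Nat.mul_assoc 5]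
    generalize (J + 1) ^ 3 * (k + 1) ^ 2 = A at a
    nlinarith [Nat.mul_le_mul_right Λ a, Nat.zero_le (J * A), Nat.zero_le (J * A * Λ),
      Nat.zero_le (A * Λ)]

theorem count_par (z : ℕ) : (P.flatMap fun p => (S'.2.1.get p).map Prod.fst).count z ≤ 2 * J := by
  have e : (P.flatMap fun p => (S'.2.1.get p).map Prod.fst) =
      (P.flatMap own).map fun a => (V.F.te.get a).1 := by
    rw [List.map_flatMap]
    exact List.flatMap_congr fun p hp => by rw [(h.cp.cs p hp).1, List.map_map]; rfl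
  rw [e, List.count_eq_countP, List.countP_map]
  refine le_trans ((h.cp.disj.subperm fun a ha => ?_).countP_le _) (h.lv.ns_te z)
  obtain ⟨p, hp, ha⟩ := List.mem_flatMap.1 ha
  obtain ⟨s, -, hs⟩ := h.cp.sub p hp
  exact h.ns_of_ids (hs a ha)

theorem nodup_GP : (G ++ P).Nodup :=
  List.nodup_append.2 ⟨h.nd, h.cp.nodup, fun a ha b hb e => by
    have := h.lt a ha
    have := ((h.cp.new b).1 hb).1
    omega⟩

end Ctx

end Vale.Agent.P305RB
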