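import Vale.Agent.P305E.Arr

/-!
# Tables: a list of pairs (keys, values) is turned into an array of lists
-/

namespace Vale.Agent.P305RB

open Vale.Agent.P305E

/-- The values `v` are added to the entries of all keys in `ks`. -/
def addT (a : Arr (List ℕ)) (ks v : List ℕ) : Arr (List ℕ) :=
  ks.foldl (fun a z => a.set z (v ++ a.get z)) a

/-- The table of a list of pairs (keys, values). -/
def tab (l : List (List ℕ × List ℕ)) : Arr (List ℕ) :=
  l.foldl (fun a x => addT a x.1 x.2) (Arr.const [])

theorem addT_mem (ks v : List ℕ) (a : Arr (List ℕ)) (z y : ℕ) :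
    y ∈ (addT a ks v).get z ↔ y ∈ a.get z ∨ (z ∈ ks ∧ y ∈ v) := by
  unfold addT
  induction ks generalizing a with
  | nil => simp
  | cons k ks ih =>
    rw [List.foldl_cons, ih, Arr.get_set]
    split_ifs with h
    · subst h
      simp only [List.mem_append, List.mem_cons, true_or, true_and]
      tauto
    · simp only [List.mem_cons, h, false_or]

theorem addT_length (ks v : List ℕ) (a : Arr (List ℕ)) (z : ℕ) :
    ((addT a ks v).get z).length = (a.get z).length + ks.count z * v.length := by
  unfold addT
  induction ks generalizing a with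
  | nil => simp
  | cons k ks ih =>
    rw [List.foldl_cons, ih, Arr.get_set, List.count_cons]
    split_ifs with h h' h'
    · subst h
      rw [List.length_append]
      ring
    · simp [h] at h'
    · simp at h'
      exact absurd h'.symm h
    · simp

theorem foldl_addT_mem (l : List (List ℕ × List ℕ)) (a : Arr (List ℕ)) (z y : ℕ) :
    y ∈ (l.foldl (fun a x => addT a x.1 x.2) a).get z ↔
      y ∈ a.get z ∨ ∃ x ∈ l, z ∈ x.1 ∧ y ∈ x.2 := by
  induction l generalizing a with
  | nil => simp
  | cons x l ih =>
    rw [List.foldl_cons, ih, addT_mem]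
    simp only [List.mem_cons, exists_eq_or_imp, or_assoc]

theorem foldl_addT_length (l : List (List ℕ × List ℕ)) (a : Arr (List ℕ)) (z : ℕ) :
    ((l.foldl (fun a x => addT a x.1 x.2) a).get z).length =
      (a.get z).length + (l.map fun x => x.1.count z * x.2.length).sum := by
  induction l generalizing a with
  | nil => simp
  | cons x l ih =>
    rw [List.foldl_cons, ih, addT_length, List.map_cons, List.sum_cons]
    omega

/-- The entries of a table. -/
theorem mem_tab {l : List (List ℕ × List ℕ)} {z y : ℕ} :
    y ∈ (tab l).get z ↔ ∃ x ∈ l, z ∈ x.1 ∧ y ∈ x.2 := by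
  rw [tab, foldl_addT_mem]
  simp

/-- The lengths of the entries of a table. -/
theorem length_tab (l : List (List ℕ × List ℕ)) (z : ℕ) :
    ((tab l).get z).length = (l.map fun x => x.1.count z * x.2.length).sum := by
  rw [tab, foldl_addT_length]
  simp

theorem sum_count_eq (l : List (List ℕ × List ℕ)) (z : ℕ) :
    (l.map fun x => x.1.count z).sum = (l.flatMap Prod.fst).count z := by
  induction l with
  | nil => simp
  | cons x l ih => simp [List.count_append, ih]

/-- The bound by the number of occurrences of the key. -/
theorem length_tab_le {l : List (List ℕ × List ℕ)} {q : ℕ} (h : ∀ x ∈ l, x.2.length ≤ q)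
    (z : ℕ) : ((tab l).get z).length ≤ (l.flatMap Prod.fst).count z * q := by
  rw [length_tab, ← sum_count_eq, ← List.sum_map_mul_right]
  exact List.sum_le_sum fun x hx => Nat.mul_le_mul_left _ (h x hx)

theorem sum_count_le {α : Type} (f : α → List ℕ) {l : List α} {p : ℕ}
    (h : ∀ x ∈ l, (f x).length ≤ p) (z : ℕ) :
    (l.flatMap f).count z ≤ (l.countP fun x => z ∈ f x) * p := by
  induction l with
  | nil => simp
  | cons x l ih =>
    have h1 := ih fun y hy => h y (by simp [hy])
    have h2 := (List.count_le_length (a := z) (l := f x)).trans (h x (by simp))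
    rw [List.flatMap_cons, List.count_append, List.countP_cons]
    by_cases e : z ∈ f x
    · simp only [e, decide_true, if_true, Nat.add_mul]
      omega
    · rw [List.count_eq_zero_of_not_mem e]
      simp only [e, decide_false, Bool.false_eq_true, if_false, Nat.add_zero]
      omega

/-- The bound by the number of pairs with the key. -/
theorem length_tab_le' {l : List (List ℕ × List ℕ)} {p q : ℕ}
    (h : ∀ x ∈ l, x.1.length ≤ p ∧ x.2.length ≤ q) (z : ℕ) :
    ((tab l).get z).length ≤ (l.countP fun x => z ∈ x.1) * p * q :=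
  (length_tab_le (fun x hx => (h x hx).2) z).trans
    (Nat.mul_le_mul_right _ (sum_count_le Prod.fst (fun x hx => (h x hx).1) z))

/-- The program that adds one pair. -/
def addTP (a : Arr (List ℕ)) (ks v : List ℕ) : M (Arr (List ℕ)) :=
  foldM (fun a z => do
    let u ← appendP v (a.get z)
    M.tick (pure (a.set z u))) a ks

@[fun_prop] theorem impl_addTP {α : Type} [Rep α] {a : α → Arr (List ℕ)} {ks v : α → List ℕ}
    (ha : Pure a) (hk : Pure ks) (hv : Pure v) : Impl fun x => addTP (a x) (ks x) (v x) := by
  unfold addTP
  fun_prop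

theorem addTP_tri (c : Cx) (a : Arr (List ℕ)) (ks v : List ℕ) :
    Tri c (addTP a ks v) fun r t => r = addT a ks v ∧ t ≤ ks.length * (v.length + 2) := by
  refine Tri.foldM_det (g := fun (a : Arr (List ℕ)) z => a.set z (v ++ a.get z))
    (T := v.length + 1) fun pre x rest _ => ?_
  simp

/-- The program that builds a table. -/
def tabP (l : List (List ℕ × List ℕ)) : M (Arr (List ℕ)) :=
  foldM (fun a x => addTP a x.1 x.2) (Arr.const []) l

@[fun_prop] theorem impl_tabP {α : Type} [Rep α] {l : α → List (List ℕ × List ℕ)} (hl : Pure l) :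
    Impl fun x => tabP (l x) := by
  unfold tabP
  fun_prop

theorem tabP_tri (c : Cx) {l : List (List ℕ × List ℕ)} {p q : ℕ}
    (h : ∀ x ∈ l, x.1.length ≤ p ∧ x.2.length ≤ q) :
    Tri c (tabP l) fun r t => r = tab l ∧ t ≤ l.length * (p * (q + 2) + 1) := by
  refine Tri.foldM_det (g := fun a (x : List ℕ × List ℕ) => addT a x.1 x.2) (T := p * (q + 2))
    fun pre x rest e => ?_
  have := h x (by simp [e])
  exact (addTP_tri c _ _ _).mono fun r t h =>
    ⟨h.1, h.2.trans (Nat.mul_le_mul this.1 (by omega))⟩

end Vale.Agent.P305RB
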