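import Vale.Agent.P305RB.Tabs

/-!
# The tables of a level: correctness and time
-/

namespace Vale.Agent.P305RB

open Vale.Agent.P305E Vale.Agent.P305M Vale.Agent.P305Q Vale.Agent.P305Y
open Vale.Agent.P305U (Ob Fo LV)

theorem mapM_det {β γ : Type} {c : Cx} {f : β → M γ} {g : β → γ} {l : List β} {T : ℕ}
    (h : ∀ x ∈ l, Tri c (f x) fun y t => y = g x ∧ t ≤ T) :
    Tri c (mapM' f l) fun l' t => l' = l.map g ∧ t ≤ l.length * (T + 2) := by
  refine (Tri.mapM' (P := fun x y => y = g x) (T := fun _ => T) h).mono fun l' t h => ⟨?_, ?_⟩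
  · have := h.1
    clear h
    induction this with
    | nil => rfl
    | cons a _ ih => rw [a, List.map_cons, ih fun x hx => h x (by simp [hx])]
  · have := h.2
    simp only [List.map_const', List.sum_replicate, smul_eq_mul] at this
    rw [Nat.mul_add]
    omega

theorem f2_left {β γ : Type} {P : β → γ → Prop} {l : List β} {l' : List γ}
    (h : List.Forall₂ P l l') : ∀ x ∈ l, ∃ y ∈ l', P x y := by
  induction h with
  | nil => simp
  | cons a _ ih =>
    intro x hx
    rcases List.mem_cons.1 hx with rfl | hx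
    · exact ⟨_, by simp, a⟩
    · obtain ⟨y, h1, h2⟩ := ih x hx
      exact ⟨y, by simp [h1], h2⟩

theorem f2_right {β γ : Type} {P : β → γ → Prop} {l : List β} {l' : List γ}
    (h : List.Forall₂ P l l') : ∀ y ∈ l', ∃ x ∈ l, P x y :=
  f2_left (P := fun y x => P x y) h.flip

theorem length_flatten_le {β : Type} {l : List (List β)} (h : ∀ r ∈ l, r.length ≤ 1) :
    l.flatten.length ≤ l.length := by
  induction l with
  | nil => simp
  | cons r l ih =>
    have := h r (by simp)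
    have := ih fun r hr => h r (by simp [hr])
    simp only [List.flatten_cons, List.length_append, List.length_cons]
    omega

theorem countP_zipIdx {β : Type} (l : List β) (p : β → Bool) :
    (l.zipIdx.countP fun x => p x.1) = l.countP p := by
  conv_rhs => rw [← List.zipIdx_map_fst 0 l, List.countP_map]
  rfl

theorem sum_single {β : Type} (f : β → ℕ) (l : List β) (z q : ℕ) :
    (l.map fun x => [f x].count z * q).sum = q * l.countP fun x => f x = z := by
  induction l with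
  | nil => simp
  | cons x l ih =>
    rw [List.map_cons, List.sum_cons, ih, List.countP_cons]
    by_cases e : f x = z <;> simp [e, Nat.mul_add, Nat.add_comm]

theorem ex_map {β γ : Type} {f : β → γ} {l : List β} {p : γ → Prop} :
    (∃ y ∈ l.map f, p y) ↔ ∃ x ∈ l, p (f x) :=
  ⟨fun ⟨_, h, a⟩ => let ⟨x, hx, e⟩ := List.mem_map.1 h; ⟨x, hx, e ▸ a⟩,
    fun ⟨x, hx, a⟩ => ⟨f x, List.mem_map_of_mem hx, a⟩⟩

theorem arith {n p g s nc m k J t1 t2 t3 t4 t5 t6 t7 t8 t9 u : ℕ} (h1 : t1 ≤ n * (6 * m + 2))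
    (h2 : t2 ≤ n * (m * (m + 2) + 1)) (h3 : t3 ≤ n * (1 * (m + 2) + 1)) (h4 : t4 ≤ p * (k + 2))
    (h5 : t5 ≤ p * (k * (1 + 2) + 1)) (h6 : t6 ≤ (g + p + s) * (1 * (2 + 2) + 1))
    (h7 : t7 ≤ nc * (J + 2)) (h8 : t8 ≤ nc * (1 * (J + 1 + 2) + 1))
    (h9 : t9 ≤ n * (5 * m) + 2 * n) (hu : u ≤ n) :
    n + (t1 + (n + (t2 + (n + (t3 + (t4 + (t5 + (g + (g + p + (s + (g + p + (t6 + (nc + (t7 +
      (t8 + (t9 + (n + u + 0))))))))))))))))) ≤
      13 * (m + 1) ^ 2 * n + 10 * (k + 1) * p + 8 * (g + s) + 7 * (J + 1) * nc := by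
  linarith [Nat.zero_le (n * m), Nat.zero_le (n * m * m), Nat.zero_le (p * k), Nat.zero_le (nc * J)]

theorem tabsP_tri (c : Cx) (κ nc : ℕ) {S : Sto} (G K : List ℕ) {P : List ℕ} {V : LV} {Q : Arr SW}
    {m X k J : ℕ} (hm : ∀ x ∈ V.obs.zipIdx, (cyc V Q.get x).length ≤ m)
    (hX : ∀ x ∈ V.obs.zipIdx, ∀ y ∈ cyc V Q.get x,
      (S.1.get y.1).2.2.1 ≤ X ∧ (S.1.get y.1).2.2.2.natAbs ≤ X)
    (hk : ∀ p ∈ P, (S.2.1.get p).length ≤ k) (hJ : ∀ u, (V.cls.get u).length ≤ J)
    (hB : m * X ≤ c.B) (hB' : V.obs.length ≤ c.B) :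
    Tri c (tabsP κ nc S G P K V Q) fun L t => TabOK κ nc S G P K V Q.get L ∧
      t ≤ 13 * (m + 1) ^ 2 * V.obs.length + 10 * (k + 1) * P.length +
        8 * (G.length + V.ns.length) + 7 * (J + 1) * nc := by
  unfold tabsP
  simp only [Tri_bind, Tri_zipIdxP]
  refine ⟨hB', (mapM_det (g := fun x => (x.1.tr, cyc V Q.get x, its V Q.get x)) (T := 6 * m)
    fun x hx => ?_).mono ?_⟩
  · simp only [Tri_bind]
    refine (cycP_tri c V Q x).mono ?_
    rintro _ t ⟨rfl, ht⟩
    have := hm x hx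
    simp only [Tri_mapP, Tri_pure, its, true_and]
    omega
  rintro _ t1 ⟨rfl, h1⟩
  have li : ∀ x ∈ V.obs.zipIdx, (its V Q.get x).length ≤ m := fun x hx => by
    simpa [its] using hm x hx
  simp only [Tri_mapP, List.map_map, Function.comp_def, List.length_map]
  refine (tabP_tri c (p := m) (q := m) (List.forall_mem_map.2 fun x hx => ⟨li x hx, li x hx⟩)).mono ?_
  rintro _ t2 ⟨rfl, h2⟩
  refine (tabP_tri c (p := 1) (q := m) ?_).mono ?_
  · simp only [List.forall_mem_map]
    exact fun x hx => ⟨by cases x.1.tr <;> simp, li x hx⟩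
  rintro _ t3 ⟨rfl, h3⟩
  refine (mapM_det (g := fun p => ((S.2.1.get p).map Prod.fst, [p])) (T := k)
    fun p hp => by simpa only [Tri_bind, Tri_mapP, Tri_pure, true_and, Nat.add_zero] using hk p hp).mono ?_
  rintro _ t4 ⟨rfl, h4⟩
  refine (tabP_tri c (p := k) (q := 1) (by simpa using hk)).mono ?_
  rintro _ t5 ⟨rfl, h5⟩
  simp only [Tri_appendP]
  refine (tabP_tri c (p := 1) (q := 2) ?_).mono ?_
  · simp only [List.mem_append, List.mem_map]
    rintro x (⟨z, -, rfl⟩ | ⟨z, -, rfl⟩) <;> simp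
  rintro _ t6 ⟨rfl, h6⟩
  simp only [Tri_rangeP]
  refine (mapM_det (g := ctlF V) (T := J) fun j _ => (ctl1_tri c V j).mono fun r t h =>
    ⟨h.1, h.2.trans (hJ _)⟩).mono ?_
  rintro _ t7 ⟨rfl, h7⟩
  refine (tabP_tri c (p := 1) (q := J + 1) (by simpa [ctlF] using fun a _ => hJ _)).mono ?_
  rintro _ t8 ⟨rfl, h8⟩
  have a : ∀ y ∈ V.obs.zipIdx.map fun x => (x.1.tr, cyc V Q.get x, its V Q.get x),
      y.2.1.length ≤ m ∧ ∀ z ∈ y.2.1, (S.1.get z.1).2.2.1 ≤ X ∧ (S.1.get z.1).2.2.2.natAbs ≤ X :=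
    List.forall_mem_map.2 fun x hx => ⟨hm x hx, hX x hx⟩
  refine (Tri.mapM' (T := fun _ => 5 * m) fun y hy => (cand1_tri c κ S.1 (a y hy).2
    ((Nat.mul_le_mul_right _ (a y hy).1).trans hB)).mono fun r t h =>
      ⟨h.1, h.2.trans (Nat.mul_le_mul_left _ (a y hy).1)⟩).mono ?_
  clear a
  rintro cd t9 ⟨hc, h9⟩
  have c1 := hc.length_eq
  have c2 := length_flatten_le fun r hr => let ⟨_, _, h⟩ := f2_right hc r hr; h.1
  simp only [List.length_map, List.length_zipIdx] at c1
  simp only [Tri_flattenP, Tri_pure]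
  refine ⟨⟨rfl, rfl, fun _ => rfl, fun z y => ?_, fun C y => ?_, fun z p => ?_, fun z y => ?_,
    fun C y => ?_, fun w hw => ?_, fun x hx => ?_, fun m' hm' z => ⟨?_, ?_⟩, fun z => ?_,
    fun z => ?_, fun C => ?_, c1 ▸ c2⟩, ?_⟩
  · simp only [Lvl.em, mem_tab, ex_map]
  · simp only [Lvl.cem, mem_tab, ex_map]
    refine exists_congr fun x => and_congr_right fun _ => and_congr_left fun _ => ?_
    cases x.1.tr <;> simp [eq_comm]
  · simp only [Lvl.par, mem_tab, ex_map, List.mem_singleton]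
    exact ⟨fun ⟨_, a, b, e⟩ => e ▸ ⟨a, b⟩, fun h => ⟨p, h.1, h.2, rfl⟩⟩
  · simp only [Lvl.tl, mem_tab, List.mem_append (s := List.map _ _), or_and_right (c := _ ∈ _ ∧ _),
      exists_or, ex_map, List.mem_cons, List.not_mem_nil, or_false]
    refine or_congr ⟨fun ⟨_, a, e, b⟩ => e ▸ ⟨List.mem_append.1 a, b⟩,
      fun h => ⟨z, List.mem_append.2 h.1, rfl, h.2⟩⟩ ?_
    simp only [eq_comm (a := z)]
  · simp only [Lvl.ctl, mem_tab, ex_map]
    simp only [ctlF, List.mem_range, List.mem_cons, List.mem_map, List.not_mem_nil, or_false,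
      eq_comm (b := y)]
    exact ⟨fun ⟨_, a, e, b⟩ => e ▸ ⟨a, b⟩, fun h => ⟨C, h.1, rfl, h.2⟩⟩
  · obtain ⟨r, hr, hw⟩ := List.mem_flatten.1 hw
    obtain ⟨y, hy, h⟩ := f2_right hc r hr
    obtain ⟨x, hx, rfl⟩ := List.mem_map.1 hy
    exact ⟨(h.2.1 w hw).1, (h.2.1 w hw).2.1, x, hx, (h.2.1 w hw).2.2⟩
  · obtain ⟨r, hr, h⟩ := f2_left hc _ (List.mem_map.2 ⟨x, hx, rfl⟩)
    exact h.2.2.imp_left (Or.imp (fun a => List.mem_flatten.2 ⟨r, hr, a⟩)
      fun a => List.mem_flatten.2 ⟨r, hr, a⟩)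
  · refine (length_tab_le' (p := m') (q := m') ?_ z).trans (by rw [List.countP_map]; rfl)
    simp only [List.forall_mem_map, its, List.length_map, and_self]
    exact hm'
  · refine (length_tab_le' (p := 1) (q := m') ?_ z).trans (le_of_eq ?_)
    · simp only [List.forall_mem_map, its, List.length_map]
      exact fun x hx => ⟨by cases x.1.tr <;> simp, hm' x hx⟩
    · rw [List.countP_map, Nat.mul_one, ← countP_zipIdx V.obs]
      refine congrArg (· * m') (List.countP_congr fun x _ => ?_)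
      cases h : x.1.tr <;> simp [h, eq_comm]
  · simp only [Lvl.par, length_tab, List.map_map, Function.comp_def, List.length_singleton,
      Nat.mul_one, List.count_flatMap]
  · simp only [Lvl.tl, length_tab, List.map_append (l₁ := List.map _ _), List.sum_append,
      List.map_map, Function.comp_def, List.length_cons, List.length_nil]
    rw [sum_single (fun x => x), sum_single (fun a => (V.F.te.get a).1), Nat.one_mul,
      List.count_eq_countP]
    rfl
  · rw [Lvl.ctl, length_tab, List.map_map]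
    refine (le_of_eq ?_).trans (Nat.mul_le_mul_left ((V.cls.get (V.ctr.get C)).length + 1)
      (List.nodup_iff_count_le_one.1 (List.nodup_range (n := nc)) C)) |>.trans (by omega)
    rw [List.count_eq_countP]
    refine Eq.trans (congrArg List.sum (List.map_congr_left fun j _ => ?_))
      (sum_single (fun x => x) _ C _)
    by_cases e : j = C <;> simp [ctlF, e]
  · simp only [List.length_map, List.length_zipIdx, List.length_append, List.length_range,
      List.map_const', List.sum_replicate, smul_eq_mul] at h1 h2 h3 h4 h5 h6 h7 h8 h9 ⊢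
    rw [← c1] at c2 ⊢
    exact arith h1 h2 h3 h4 h5 h6 h7 h8 h9 c2

end Vale.Agent.P305RB
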